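import Vale.Agent.P281.H368.NU.Van
import Vale.Agent.P281.H413.MFS.DataX
import Vale.Agent.P281.H342.KG.ME3
import Vale.Agent.P281.H342.KG.F2
import Vale.Agent.P281.H342.NU.Iface

/-! P281, theorem NU, row N7: the metric data on `X` from the volume form `W`. -/

open scoped Manifold ContDiff ComplexOrder Topology
open Set Filter Vale.Agent.P281 Vale.Agent.P272.K Vale.Agent.P272.K.AMP Vale.Agent.P299
open Vale.Agent.P299.H882 (xi qf)
open Vale.Agent.P272.K.INT (IsClosedForm)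

set_option linter.all false

noncomputable section

namespace Vale.Agent.P281.H368.NU

open Vale.Agent.P281.H713 Vale.Agent.P281.H713.SA Vale.Agent.P281.H713.KD Vale.Agent.P281.H716
open Vale.Agent.P281.H716.IsSys
open Vale.Agent.P281.H167.GM (mixX addF isClosed_addF phiD cHess_phiD smooth_logR)
open Vale.Agent.P281.H167.KG (LocAt)
open Vale.Agent.P281.H368.MFS (IsSemiPos VolLoc ConAt InKer)
open Vale.Agent.P281.H413.MFS (exists_enumM)
open Vale.Agent.P281.H342.NU (IsNef PsefK CurvKN NefPart)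

/-- a function which is `C²` near `x` in one chart is `C²` near `x` in all charts -/
lemma eventually_C2 {n : ℕ} {X : Type} [TopologicalSpace X] [ChartedSpace (Cm n) X]
    [IsManifold 𝓘(ℂ, Cm n) ω X] {v : X → ℝ} {x : X}
    (hv : ∀ e : Chart n X, At e x → ContDiffAt ℝ ∞ (fun z => v (e.symm z)) (e x)) :
    ∀ᶠ y in 𝓝 x, ∀ e : Chart n X, At e y → ContDiffAt ℝ 2 (fun z => v (e.symm z)) (e y) := by
  set c : Chart n X := chartAt (Cm n) x with hc
  have hx : At c x := ⟨chart_mem_atlas _ _, mem_chart_source _ _⟩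
  have h1 : ContDiffAt ℝ 2 (fun z => v (c.symm z)) (c x) := (hv c hx).of_le (by norm_cast)
  have h2 : ∀ᶠ z in 𝓝 (c x), ContDiffAt ℝ 2 (fun z => v (c.symm z)) z := h1.eventually (by simp)
  filter_upwards [(c.continuousAt hx.2).eventually h2, c.open_source.mem_nhds hx.2]
    with y hy hys e he
  have hyA : At c y := ⟨hx.1, hys⟩
  have h3 : ContDiffAt ℝ 2 (fun z => c (e.symm z)) (e y) :=
    ((INT.transition_contDiffAt he hyA).restrict_scalars ℝ).of_le (by exact le_top)
  have h4 : Tendsto e.symm (𝓝 (e y)) (𝓝 y) := by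
    have := e.continuousAt_symm (e.map_source he.2)
    rwa [ContinuousAt, he.left_inv] at this
  have h5 : (fun z => v (e.symm z)) =ᶠ[𝓝 (e y)] fun z => v (c.symm (c (e.symm z))) := by
    filter_upwards [h4.eventually (c.open_source.mem_nhds hys)] with z hz
    rw [c.left_inv hz]
  refine ContDiffAt.congr_of_eventuallyEq ?_ h5
  refine ContDiffAt.comp (e y) (g := fun z => v (c.symm z)) (f := fun z => c (e.symm z)) ?_ h3
  simp only [he.left_inv]
  exact hy

/-- **row N7** -/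
theorem nefPart : NefPart := by
  intro n X _ _ _ _ _ _ χ hχ Δ hΔ m hm k hk θ β hθ hβ W hW
  classical
  set T : Finset (Set X) := hΔ.1.toFinset with hTdef
  have hTΔ : ∀ D, D ∈ T ↔ Δ D ≠ 0 := fun D => Set.Finite.mem_toFinset _
  have hTex : ∀ D ∈ T, ∀ x, ∃ g, J.IsLocalEq (Cm n) D g x := fun D hD =>
    (hΔ.2.1 D ((hTΔ D).1 hD)).2.1
  have hsX : IsSys n (H342.KD.eqD n) T := H342.KD.isSys_eqD hTex
  have hm0 : (0 : ℝ) < m := by exact_mod_cast hm
  have hksupp : ∀ D, k D ≠ 0 → D ∈ T := by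
    intro D hD
    refine (hTΔ D).2 fun h0 => hD ?_
    have h1 := hk D
    rw [h0, mul_zero] at h1
    exact_mod_cast h1
  obtain ⟨M, Dv, hinj, hDvT⟩ := exists_enumM T
  have hDv : ∀ i, Dv i ∈ T := fun i => (hDvT _).2 ⟨i, rfl⟩
  have hprod : ∀ f : Set X → ℂ, ∏ i, f (Dv i) = ∏ D ∈ T, f D := by
    intro f
    have h1 : T = Finset.univ.image Dv := by
      ext D
      rw [hDvT, Finset.mem_image]
      simp
    rw [h1, Finset.prod_image fun i _ i' _ hii => hinj hii]
  choose ψ hψ hψle using fun i => H342.KD.exists_wt_le hsX (hDv i)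
  have hφ := AMP.Main.isCanonical_logdet hχ.toIsHermitian
  set φ : Chart n X → Cm n → ℝ := fun e z => Real.log (χ e z).det.re with hφd
  set r : Fin M → X → ℝ := fun i => H342.KD.rr hsX (Dv i) (ψ i) with hrd
  set R : Fin M → D.FormM n X := fun i => Vale.Agent.P285.TM.cv (H342.KD.OD hsX (Dv i) (hDv i))
    (ψ i) with hRd
  have hBd : IsBd Dv r R := by
    refine H342.KD.isBd hsX hinj hDv hψ hψle ?_
    intro x g hg c
    obtain ⟨ξ, hξ⟩ := hΔ.2.2.2 x g (fun D hD hx => hg D ((hTΔ D).2 hD) hx)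
      (fun D => c ⟨D.1, (hTΔ D.1).2 D.2.1, D.2.2⟩)
    exact ⟨ξ, funext fun D => congrFun hξ ⟨D.1, (hTΔ D.1).1 D.2.1, D.2.2⟩⟩
  set dl : Fin M → ℝ := fun i => Δ (Dv i) with hdl
  set ρ : X → ℝ := H342.MFS.rhoW hsX Dv ψ φ k m W with hρdef
  set Λ : D.FormM n X := fun e z => clsK φ dl R e z - θ e z with hΛdef
  have hθc := hθ.1
  have hβc := hβ.isClosedForm
  have hcls : IsClosedForm (clsK φ dl R) := H342.KG.closed_cls hBd.closed hφ
  have hΛ : IsClosedForm Λ := by
    have h1 : Λ = addF (clsK φ dl R) (-1) θ := by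
      funext e z
      show clsK φ dl R e z - θ e z = clsK φ dl R e z + (((-1 : ℝ) : ℝ) : ℂ) • θ e z
      rw [Complex.ofReal_neg, Complex.ofReal_one, neg_one_smul]
      abel
    rw [h1]
    exact isClosed_addF hcls hθc (-1)
  have hloc : ∀ x, ∃ (r : ℕ) (g : Fin r → X → ℂ) (a : Fin r → ℕ) (w : X → ℂ),
      LocAt m Λ ρ x g a (fun (_ : Fin 1) => w) ∧
      ∀ᶠ z in 𝓝 x, ∀ i, g i z = 0 → ConAt n (g i) β θ z := by
    intro x
    obtain ⟨r, g, a, hV, hD⟩ := hW x
    obtain ⟨T', q, u, h1, h2, h3, h4⟩ := hV.loc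
    obtain ⟨w, -, -, hL⟩ := H342.MFS.locW (dl := dl) (B := fun e z => θ e z) hsX hprod hDv
      hψ hφ hksupp (fun i => hk (Dv i)) h1 h2 hV.holg h3 (by
        filter_upwards [h4] with z hz
        refine ⟨fun c hc => ?_, hz.2⟩
        have := hz.1 c hc
        rwa [sub_zero] at this)
    exact ⟨r, g, a, w, hL, hD⟩
  obtain ⟨C₀, -, hC₀0, hρs, hρ0, hρd, -, -, hcurv₀, -⟩ := H342.KG.formPartG n X χ hχ m hm Λ hΛ ρ
    fun x => by
      obtain ⟨r, g, a, w, hL, -⟩ := hloc x
      exact ⟨r, 1, g, a, _, hL⟩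
  refine ⟨M, Dv, r, R, φ, hinj, fun D => (hTΔ D).symm.trans (hDvT D), hBd, hφ, ?_, ?_⟩
  · intro ε₀ hε₀
    obtain ⟨u, hu, hpsd⟩ := hθ.2.2 ε₀ hε₀
    set ρ' : X → ℝ := fun x => ρ x * Real.exp (m * u x) with hρ'
    set Λ' : D.FormM n X := fun e z => Λ e z - hess u e z with hΛ'def
    have huc : IsClosedForm (hess (n := n) u) := INT.isClosedForm_cHess hu
    have hΛ' : IsClosedForm Λ' := by
      have h1 : Λ' = addF Λ (-1) (hess u) := by
        funext e z
        show Λ e z - hess u e z = Λ e z + (((-1 : ℝ) : ℝ) : ℂ) • hess u e z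
        rw [Complex.ofReal_neg, Complex.ofReal_one, neg_one_smul]
        abel
      rw [h1]
      exact isClosed_addF hΛ huc (-1)
    have hloc' : ∀ x, ∃ (r N : ℕ) (g : Fin r → X → ℂ) (a : Fin r → ℕ) (H : Fin N → X → ℂ),
        LocAt m Λ' ρ' x g a H := by
      intro x
      obtain ⟨r, g, a, w, hL, -⟩ := hloc x
      obtain ⟨v, hv, hv2⟩ := hL.loc
      refine ⟨r, 1, g, a, _, hL.holg, hL.holH, hL.ne, fun y => v y - u y,
        fun e he => (hv e he).sub (hu e x he), ?_⟩
      filter_upwards [hv2, eventually_C2 hv] with y hy hy2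
      refine ⟨fun e he => ?_, ?_⟩
      · show Λ e (e y) - hess u e (e y) = cHess (fun z => v (e.symm z) - u (e.symm z)) (e y)
        rw [C2.cHess_sub (hy2 e he) ((hu e y he).of_le (by norm_cast)),
          hy.1 e he]
        rfl
      · show ρ y * Real.exp (m * u y) = _
        have h5 : -(m : ℝ) * (v y - u y) = -(m : ℝ) * v y + m * u y := by ring
        rw [hy.2, h5, Real.exp_add]
        ring
    obtain ⟨C, -, hC0, hρs', hρ0', hρd', -, -, hcurv, -⟩ :=
      H342.KG.formPartG n X χ hχ m hm Λ' hΛ' ρ' hloc'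
    refine ⟨ρ', C, hρs', hρ0', hρd', hC0, ?_⟩
    intro δ hδ e x hx
    have h1 := hcurv δ hδ e x hx
    have h2 := h1.add (hpsd e x hx)
    have h3 := cHess_phiD (m := m) hφ hρs' hρ0' hδ hx
    have h4 : addH (H167.GM.cF φ) (fun x => (m : ℝ)⁻¹ * Real.log (ρ' x + δ)) e (e x) =
        cHess (φ e) (e x) + (((m : ℝ)⁻¹ : ℝ) : ℂ) • hess (fun y => Real.log (ρ' y + δ)) e (e x) := by
      show cHess (φ e) (e x) + cHess (fun y => (m : ℝ)⁻¹ * Real.log (ρ' (e.symm y) + δ)) (e x) = _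
      rw [C2.cHess_const_mul]
      · rfl
      · have h5 : ContDiffAt ℝ ∞ (fun y => Real.log (ρ' (e.symm y) + δ)) (e x) := by
          refine ((hρs' e x hx).add contDiffAt_const).log ?_
          rw [hx.left_inv]
          have := hρ0' x
          linarith
        exact h5.of_le (by norm_cast)
    have h5 : curvK φ m ρ' δ dl R e (e x) = cHess (phiD φ m ρ' δ e) (e x) +
      (∑ i, ((dl i : ℝ) : ℂ) • R i e (e x)) := rfl
    have h6 : Λ' e (e x) = cHess (φ e) (e x) + (∑ i, ((dl i : ℝ) : ℂ) • R i e (e x)) -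
      θ e (e x) - hess u e (e x) := rfl
    have h7 : curvK φ m ρ' δ dl R e (e x) +
        ((C * (δ / (ρ' x + δ)) + ε₀ : ℝ) : ℂ) • χ e (e x) =
        (Λ' e (e x) + (((m : ℝ)⁻¹ : ℝ) : ℂ) • hess (fun y => Real.log (ρ' y + δ)) e (e x) +
          ((C * (δ / (ρ' x + δ)) : ℝ) : ℂ) • χ e (e x)) +
          (θ e (e x) + hess u e (e x) + (ε₀ : ℂ) • χ e (e x)) := by
      rw [h5, h6, h3, h4, Complex.ofReal_add, add_smul]
      abel
    rw [h7]
    exact h2
  · intro s
    have hA : IsClosedForm (addF β s θ) := isClosed_addF hβc hθc s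
    have hV : VData m Λ ρ (addF β s θ) := by
      refine ⟨hm, hΛ, hρs, hρ0, hA, fun x => ?_⟩
      obtain ⟨r, g, a, w, hL, hev⟩ := hloc x
      refine ⟨r, g, a, w, hL, ?_⟩
      filter_upwards [hev] with y hy i hgi
      obtain ⟨v, hv0, hv1, hv2, hv3⟩ := hy i hgi
      refine ⟨v, hv0, hv1, fun j => ?_⟩
      have h1 := hv2 j
      have h2 := hv3 j
      show ∑ i, v i * (β (chartAt (Cm n) y) (chartAt (Cm n) y y) +
        (s : ℂ) • θ (chartAt (Cm n) y) (chartAt (Cm n) y y)) i j = 0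
      have h3 : ∀ i, v i * (β (chartAt (Cm n) y) (chartAt (Cm n) y y) +
        (s : ℂ) • θ (chartAt (Cm n) y) (chartAt (Cm n) y y)) i j =
          v i * β (chartAt (Cm n) y) (chartAt (Cm n) y y) i j +
          (s : ℂ) * (v i * θ (chartAt (Cm n) y) (chartAt (Cm n) y y) i j) := by
        intro i
        rw [Matrix.add_apply, Matrix.smul_apply, smul_eq_mul]
        ring
      rw [Finset.sum_congr rfl fun i _ => h3 i, Finset.sum_add_distrib, ← Finset.mul_sum, h1, h2,
        mul_zero, add_zero]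
    have h0 := hV.vanishing hχ
    have h3 := H575.MFS.mixX_add (Λ' := clsK φ dl R) hA hχ hΛ hθc (fun e x hx => by
        show clsK φ dl R e (e x) = (clsK φ dl R e (e x) - θ e (e x)) + θ e (e x)
        abel)
    rw [h3, h0, zero_add]

end Vale.Agent.P281.H368.NU
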