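import Vale.Agent.P281.H368.GM.K3

/-! P281, theorem NU, row N7, part 1: the form `|adj(A) ξ|²` (`A` is any matrix) and the local bound. -/

open scoped Manifold ContDiff Topology ComplexOrder
open Set Filter Vale.Agent.P272.K

noncomputable section

namespace Vale.Agent.P281.H368.NU

open Vale.Agent.P281.H167.GM Vale.Agent.P272.K.INT Vale.Agent.P299.H882 Vale.Agent.P299.H223
open Vale.Agent.P281.H368.GM

variable {n : ℕ}

/-- `|adj(A) ξ|²` -/
def Sf (A : Matrix (Fin n) (Fin n) ℂ) (ξ : Fin n → ℂ) : ℝ := ∑ j, ‖A.adjugate.mulVec ξ j‖ ^ 2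

lemma Sf_nonneg (A : Matrix (Fin n) (Fin n) ℂ) (ξ : Fin n → ℂ) : 0 ≤ Sf A ξ :=
  Finset.sum_nonneg fun j _ => by positivity

lemma Sf_smul (A : Matrix (Fin n) (Fin n) ℂ) (c : ℂ) (ξ : Fin n → ℂ) :
    Sf A (c • ξ) = ‖c‖ ^ 2 * Sf A ξ := by
  unfold Sf
  rw [Finset.mul_sum]
  refine Finset.sum_congr rfl fun j _ => ?_
  rw [Matrix.mulVec_smul, Pi.smul_apply, smul_eq_mul, norm_mul, mul_pow]

lemma Sf_add_le (A : Matrix (Fin n) (Fin n) ℂ) (ξ η : Fin n → ℂ) :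
    Sf A (ξ + η) ≤ 2 * (Sf A ξ + Sf A η) := by
  unfold Sf
  rw [← Finset.sum_add_distrib, Finset.mul_sum]
  refine Finset.sum_le_sum fun j _ => ?_
  rw [Matrix.mulVec_add, Pi.add_apply]
  have h1 := norm_add_le (A.adjugate.mulVec ξ j) (A.adjugate.mulVec η j)
  have h2 : ‖A.adjugate.mulVec ξ j + A.adjugate.mulVec η j‖ ^ 2 ≤
      (‖A.adjugate.mulVec ξ j‖ + ‖A.adjugate.mulVec η j‖) ^ 2 :=
    pow_le_pow_left₀ (norm_nonneg _) h1 2
  nlinarith [sq_nonneg (‖A.adjugate.mulVec ξ j‖ - ‖A.adjugate.mulVec η j‖)]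

lemma Sf_zero (A : Matrix (Fin n) (Fin n) ℂ) : Sf A 0 = 0 := by
  simp [Sf]

lemma Sf_sum_le (A : Matrix (Fin n) (Fin n) ℂ) {ι : Type*} (s : Finset ι) (ξ : ι → Fin n → ℂ) :
    Sf A (∑ i ∈ s, ξ i) ≤ 2 ^ s.card * ∑ i ∈ s, Sf A (ξ i) := by
  classical
  induction s using Finset.induction_on with
  | empty => simp [Sf_zero]
  | insert a s ha ih =>
    rw [Finset.sum_insert ha, Finset.sum_insert ha, Finset.card_insert_of_notMem ha, pow_succ]
    have h1 := Sf_add_le A (ξ a) (∑ i ∈ s, ξ i)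
    have h2 := Sf_nonneg A (ξ a)
    have h3 : (1 : ℝ) ≤ 2 ^ s.card := one_le_pow₀ one_le_two
    nlinarith

/-- `adj(A) ξ = 0` if `A` and `ξ` have a common kernel vector -/
lemma Sf_zero_of_ker {A : Matrix (Fin n) (Fin n) ℂ} {ξ w : Fin n → ℂ} (hw : w ≠ 0)
    (h1 : ∑ i, w i * ξ i = 0) (h2 : ∀ j, ∑ i, w i * A i j = 0) : Sf A ξ = 0 := by
  unfold Sf
  refine Finset.sum_eq_zero fun j _ => ?_
  have h3 : A.adjugate.mulVec ξ j = (A.updateCol j ξ).det := by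
    rw [← Matrix.cramer_eq_adjugate_mulVec, Matrix.cramer_apply]
  have h4 : (A.updateCol j ξ).det = 0 := by
    refine Matrix.exists_vecMul_eq_zero_iff.1 ⟨w, hw, ?_⟩
    funext k
    rw [Matrix.vecMul, dotProduct, Pi.zero_apply]
    by_cases hk : k = j
    · subst hk
      simp only [Matrix.updateCol_self]
      exact h1
    · simp only [Matrix.updateCol_ne hk]
      exact h2 k
  rw [h3, h4, norm_zero, zero_pow two_ne_zero]

lemma mixD_rk1 (A : Matrix (Fin n) (Fin n) ℂ) (ξ : Fin n → ℂ) :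
    mixD A (rk1 ξ) = (∑ j, A.adjugate.mulVec ξ j * star (ξ j)).re := by
  unfold mixD rk1
  rw [Matrix.mul_vecMulVec, Matrix.trace_vecMulVec]
  rfl

lemma abs_mixD_le (A : Matrix (Fin n) (Fin n) ℂ) (ξ : Fin n → ℂ) {κ : ℝ} (hκ : 0 < κ) :
    |mixD A (rk1 ξ)| ≤ κ * ∑ j, ‖ξ j‖ ^ 2 + κ⁻¹ * Sf A ξ := by
  rw [mixD_rk1]
  refine (Complex.abs_re_le_norm _).trans ?_
  refine (norm_sum_le _ _).trans ?_
  unfold Sf
  rw [Finset.mul_sum, Finset.mul_sum, ← Finset.sum_add_distrib]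
  refine Finset.sum_le_sum fun j _ => ?_
  rw [norm_mul, norm_star]
  set a := ‖A.adjugate.mulVec ξ j‖
  set b := ‖ξ j‖
  have ha : 0 ≤ a := norm_nonneg _
  have hb : 0 ≤ b := norm_nonneg _
  have h1 : 0 ≤ κ⁻¹ * (a - κ * b) ^ 2 := by positivity
  have h2 : κ⁻¹ * (a - κ * b) ^ 2 = κ⁻¹ * a ^ 2 - 2 * (a * b) + κ * b ^ 2 := by
    field_simp
    ring
  have h3 : 0 ≤ a * b := mul_nonneg ha hb
  linarith

lemma contDiffAt_Sf {A : Cm n → Matrix (Fin n) (Fin n) ℂ} {ξ : Cm n → Fin n → ℂ}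
    {p : Cm n} {k : WithTop ℕ∞} (hA : ∀ i j, ContDiffAt ℝ k (fun z => A z i j) p)
    (hξ : ∀ i, ContDiffAt ℝ k (fun z => ξ z i) p) :
    ContDiffAt ℝ k (fun z => Sf (A z) (ξ z)) p := by
  unfold Sf
  refine ContDiffAt.sum fun j _ => ?_
  have h1 : ContDiffAt ℝ k (fun z => (A z).adjugate.mulVec (ξ z) j) p := by
    have h2 : (fun z => (A z).adjugate.mulVec (ξ z) j) = fun z => ((A z).updateCol j (ξ z)).det := by
      funext z
      rw [← Matrix.cramer_eq_adjugate_mulVec, Matrix.cramer_apply]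
    rw [h2]
    refine INT.contDiffAt_det fun i l => ?_
    by_cases hl : l = j
    · subst hl
      simp only [Matrix.updateCol_self]
      exact hξ i
    · simp only [Matrix.updateCol_ne hl]
      exact hA i l
  exact h1.norm_sq ℝ

/-- **the local bound** near a point of the fixed divisor -/
theorem local_boundS {r : ℕ} {A : Cm n → Matrix (Fin n) (Fin n) ℂ} {p : Cm n}
    (hA : ∀ i j, ContDiffAt ℝ ∞ (fun z => A z i j) p)
    {g : Fin r → Cm n → ℂ} {a : Fin r → ℕ} (hg : ∀ i, ContDiffAt ℂ ω (g i) p)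
    (hg' : ∀ i, fderiv ℂ (g i) p ≠ 0) {E : Cm n → ℝ} (hE : ContDiffAt ℝ 2 E p) (hE0 : 0 < E p)
    {R : Cm n → ℝ} (hR : ∀ᶠ z in 𝓝 p, R z = ‖∏ i, g i z ^ a i‖ ^ 2 * E z)
    (h0 : ∀ᶠ z in 𝓝 p, ∀ i, g i z = 0 → Sf (A z) (dh (g i) z) = 0) :
    ∃ C : ℝ, ∀ᶠ z in 𝓝 p, 0 < R z →
      Sf (A z) (dd (fun y => Real.log (R y)) z) ≤ C := by
  -- each component
  have h1 : ∀ i, ∃ C : ℝ, 0 ≤ C ∧ ∀ᶠ z in 𝓝 p,
      Sf (A z) (dh (g i) z) ≤ C * ‖g i z‖ ^ 2 := by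
    intro i
    have hd : ∀ k, ContDiffAt ℝ ∞ (fun z => dh (g i) z k) p := fun k =>
      ((contDiffAt_dh (hg i) k).restrict_scalars ℝ).of_le (by exact le_top)
    have hQ : ContDiffAt ℝ ∞ (fun z => Sf (A z) (dh (g i) z)) p :=
      contDiffAt_Sf hA hd
    by_cases hgi : g i p = 0
    · obtain ⟨C, hC⟩ := vanish (hQ.of_le (by norm_cast))
        (Eventually.of_forall fun z => Sf_nonneg _ _) (hg i) hgi (hg' i)
        (h0.mono fun z hz => hz i)
      refine ⟨|C|, abs_nonneg _, hC.mono fun z hz => hz.trans ?_⟩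
      exact mul_le_mul_of_nonneg_right (le_abs_self _) (by positivity)
    · have hc : ContinuousAt (fun z => Sf (A z) (dh (g i) z) / ‖g i z‖ ^ 2) p :=
        hQ.continuousAt.div ((hg i).continuousAt.norm.pow 2)
          (pow_ne_zero 2 (norm_ne_zero_iff.2 hgi))
      refine ⟨|Sf (A p) (dh (g i) p) / ‖g i p‖ ^ 2| + 1, by positivity, ?_⟩
      have hev : ∀ᶠ z in 𝓝 p, Sf (A z) (dh (g i) z) / ‖g i z‖ ^ 2 <
          |Sf (A p) (dh (g i) p) / ‖g i p‖ ^ 2| + 1 :=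
        hc.eventually (gt_mem_nhds (lt_of_le_of_lt (le_abs_self _) (lt_add_one _)))
      filter_upwards [hev, (hg i).continuousAt.eventually_ne hgi] with z hz hz2
      have h2 : 0 < ‖g i z‖ ^ 2 := pow_pos (norm_pos_iff.2 hz2) 2
      rw [div_lt_iff₀ h2] at hz
      exact hz.le
  choose c hc0 hc using h1
  -- the smooth factor
  have hdE : ∀ k, ContDiffAt ℝ 1 (fun z => ((E z : ℂ)⁻¹ • dd E z) k) p := by
    intro k
    have e1 : ContDiffAt ℝ 1 (fun z => dd E z k) p :=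
      INT.contDiffAt_dz (INT.ofReal_contDiffAt hE) (by norm_num)
    have e2 : ContDiffAt ℝ 1 (fun z => (E z : ℂ)⁻¹) p :=
      ((INT.ofReal_contDiffAt hE).of_le (by norm_num)).inv (by exact_mod_cast hE0.ne')
    exact e2.mul e1
  have hQE : ContinuousAt (fun z => Sf (A z) ((E z : ℂ)⁻¹ • dd E z)) p :=
    (contDiffAt_Sf (fun i j => (hA i j).of_le (by norm_cast)) hdE).continuousAt
  set M : ℝ := |Sf (A p) ((E p : ℂ)⁻¹ • dd E p)| + 1 with hM
  have hQE' : ∀ᶠ z in 𝓝 p, Sf (A z) ((E z : ℂ)⁻¹ • dd E z) < M :=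
    hQE.eventually (gt_mem_nhds (lt_of_le_of_lt (le_abs_self _) (lt_add_one _)))
  refine ⟨2 * (2 ^ r * ∑ i, (a i : ℝ) ^ 2 * c i + M), ?_⟩
  have hc' : ∀ᶠ z in 𝓝 p, ∀ i, Sf (A z) (dh (g i) z) ≤ c i * ‖g i z‖ ^ 2 :=
    eventually_all.2 hc
  have hga : ∀ᶠ z in 𝓝 p, ∀ i, ContDiffAt ℂ ω (g i) z :=
    eventually_all.2 fun i => (hg i).eventually (by simp)
  filter_upwards [hR.eventually_nhds, hQE', hc', hga, hE.eventually (by simp),
    hE.continuousAt.eventually (lt_mem_nhds hE0)] with z hRz hQz hcz hgz hEz hE0z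
  intro hRpos
  have hR0 := hRz.self_of_nhds
  have hG0 : ∏ i, g i z ^ a i ≠ 0 := by
    intro h
    rw [hR0, h, norm_zero, zero_pow two_ne_zero, zero_mul] at hRpos
    exact lt_irrefl _ hRpos
  have hGz : ContDiffAt ℂ ω (fun y => ∏ i, g i y ^ a i) z :=
    contDiffAt_prod fun i _ => (hgz i).pow (a i)
  rw [dd_log_mul hRz hGz hG0 hEz hE0z,
    dh_prod a (fun i => (hgz i).differentiableAt (by simp)) hG0]
  refine (Sf_add_le _ _ _).trans ?_
  refine mul_le_mul_of_nonneg_left (add_le_add ?_ hQz.le) zero_le_two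
  refine (Sf_sum_le _ Finset.univ _).trans ?_
  rw [Finset.card_univ, Fintype.card_fin]
  refine mul_le_mul_of_nonneg_left (Finset.sum_le_sum fun i _ => ?_) (by positivity)
  rw [Sf_smul, norm_div, Complex.norm_natCast, div_pow]
  rcases Nat.eq_zero_or_pos (a i) with h | h
  · rw [h]; simp
  · have hgi : g i z ≠ 0 := fun h2 =>
      Finset.prod_ne_zero_iff.1 hG0 i (Finset.mem_univ i) (by rw [h2, zero_pow h.ne'])
    have h3 : 0 < ‖g i z‖ ^ 2 := pow_pos (norm_pos_iff.2 hgi) 2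
    rw [div_mul_eq_mul_div, div_le_iff₀ h3, mul_assoc]
    exact mul_le_mul_of_nonneg_left (hcz i) (by positivity)

/-- a continuous positive definite matrix: `tr (adj(χ) ξ ξ*) ≥ c |ξ|²` near a point -/
lemma exists_lower {χ : Cm n → Matrix (Fin n) (Fin n) ℂ} {p : Cm n}
    (hχ : ∀ i j, ContinuousAt (fun z => χ z i j) p) (hp : (χ p).PosDef) :
    ∃ c : ℝ, 0 < c ∧ ∀ᶠ z in 𝓝 p, ∀ ξ : Fin n → ℂ, c * ∑ j, ‖ξ j‖ ^ 2 ≤ mixD (χ z) (rk1 ξ) := by
  set S : Set (Fin n → ℂ) := {ξ | ∑ j, ‖ξ j‖ ^ 2 = 1} with hS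
  have hcont : Continuous fun ξ : Fin n → ℂ => ∑ j, ‖ξ j‖ ^ 2 :=
    continuous_finsetSum _ fun j _ => (continuous_apply j).norm.pow 2
  have hSc : IsCompact S := by
    refine Metric.isCompact_of_isClosed_isBounded (isClosed_eq hcont continuous_const) ?_
    refine (Metric.isBounded_closedBall (x := (0 : Fin n → ℂ)) (r := 1)).subset fun ξ hξ => ?_
    rw [Metric.mem_closedBall, dist_zero_right, pi_norm_le_iff_of_nonneg zero_le_one]
    intro j
    have h1 : ‖ξ j‖ ^ 2 ≤ ∑ j, ‖ξ j‖ ^ 2 :=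
      Finset.single_le_sum (f := fun j => ‖ξ j‖ ^ 2) (fun j _ => by positivity) (Finset.mem_univ j)
    rw [show ∑ j, ‖ξ j‖ ^ 2 = 1 from hξ] at h1
    nlinarith [norm_nonneg (ξ j)]
  -- joint continuity
  have hmc : ContinuousAt χ p := continuousAt_pi.2 fun i => continuousAt_pi.2 fun j => hχ i j
  have hF : Continuous fun q : Matrix (Fin n) (Fin n) ℂ × (Fin n → ℂ) => mixD q.1 (rk1 q.2) := by
    unfold mixD rk1
    refine Complex.continuous_re.comp (Continuous.matrix_trace (Continuous.matrix_mul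
      (Continuous.matrix_adjugate continuous_fst) ?_))
    exact Continuous.matrix_vecMulVec continuous_snd (continuous_star.comp continuous_snd)
  have hpos : ∀ ξ ∈ S, 0 < mixD (χ p) (rk1 ξ) := by
    intro ξ hξ
    rw [mixD_eq hp]
    have h0 : ξ ≠ 0 := by
      rintro rfl
      simp [hS] at hξ
    have h1 := (Complex.pos_iff.1 hp.det_pos).1
    refine mul_pos ?_ h1
    have h2 : ((χ p)⁻¹ * rk1 ξ).trace = star ξ ⬝ᵥ ((χ p)⁻¹.mulVec ξ) := by
      unfold rk1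
      rw [Matrix.mul_vecMulVec, Matrix.trace_vecMulVec, dotProduct_comm]
    rw [h2]
    exact (Complex.pos_iff.1 (hp.inv.dotProduct_mulVec_pos h0)).1
  obtain ⟨c, hc0, hc⟩ : ∃ c : ℝ, 0 < c ∧ ∀ ξ ∈ S, c < mixD (χ p) (rk1 ξ) := by
    rcases S.eq_empty_or_nonempty with h | h
    · exact ⟨1, one_pos, fun ξ hξ => by rw [h] at hξ; exact hξ.elim⟩
    · have hcp : ContinuousOn (fun ξ : Fin n → ℂ => mixD (χ p) (rk1 ξ)) S :=
        (hF.comp (continuous_const.prodMk continuous_id)).continuousOn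
      obtain ⟨ξ₀, hξ₀, hmin⟩ := hSc.exists_isMinOn h hcp
      refine ⟨mixD (χ p) (rk1 ξ₀) / 2, half_pos (hpos ξ₀ hξ₀), fun ξ hξ => ?_⟩
      have h1 := hmin hξ
      have h2 := hpos ξ₀ hξ₀
      have h3 : mixD (χ p) (rk1 ξ₀) ≤ mixD (χ p) (rk1 ξ) := h1
      linarith
  refine ⟨c, hc0, ?_⟩
  have key : ∀ᶠ z in 𝓝 p, ∀ ξ ∈ S, c < mixD (χ z) (rk1 ξ) := by
    refine hSc.eventually_forall_of_forall_eventually fun ξ hξ => ?_
    have h1 : ContinuousAt (fun q : Cm n × (Fin n → ℂ) => mixD (χ q.1) (rk1 q.2)) (p, ξ) := by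
      refine ContinuousAt.comp (f := fun q : Cm n × (Fin n → ℂ) => (χ q.1, q.2))
        (g := fun q : Matrix (Fin n) (Fin n) ℂ × (Fin n → ℂ) => mixD q.1 (rk1 q.2))
        hF.continuousAt ?_
      exact ContinuousAt.prodMk (ContinuousAt.comp (f := fun q : Cm n × (Fin n → ℂ) => q.1)
        (g := χ) hmc continuousAt_fst) continuousAt_snd
    exact h1.eventually (lt_mem_nhds (hc ξ hξ))
  filter_upwards [key] with z hz ξ
  by_cases h0 : ∑ j, ‖ξ j‖ ^ 2 = 0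
  · have h1 : ξ = 0 := by
      funext j
      have h2 := (Finset.sum_eq_zero_iff_of_nonneg (fun j _ => by positivity)).1 h0 j
        (Finset.mem_univ j)
      exact norm_eq_zero.1 (pow_eq_zero_iff two_ne_zero |>.1 h2)
    subst h1
    have h3 : rk1 (0 : Fin n → ℂ) = 0 := by
      unfold rk1
      rw [Matrix.zero_vecMulVec]
    rw [h3, mixD_zero_right]
    simp
  · have hpos' : 0 < ∑ j, ‖ξ j‖ ^ 2 :=
      lt_of_le_of_ne (Finset.sum_nonneg fun j _ => by positivity) (Ne.symm h0)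
    set N : ℝ := ∑ j, ‖ξ j‖ ^ 2 with hN
    have hs : 0 < Real.sqrt N := Real.sqrt_pos.2 hpos'
    have h1 : (((Real.sqrt N)⁻¹ : ℝ) : ℂ) • ξ ∈ S := by
      show ∑ j, ‖((((Real.sqrt N)⁻¹ : ℝ) : ℂ) • ξ) j‖ ^ 2 = 1
      have h2 : ∀ j, ‖((((Real.sqrt N)⁻¹ : ℝ) : ℂ) • ξ) j‖ ^ 2 = N⁻¹ * ‖ξ j‖ ^ 2 := by
        intro j
        rw [Pi.smul_apply, smul_eq_mul, norm_mul, mul_pow, Complex.norm_real, Real.norm_eq_abs,
          sq_abs, inv_pow, Real.sq_sqrt hpos'.le]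
      rw [Finset.sum_congr rfl fun j _ => h2 j, ← Finset.mul_sum, ← hN, inv_mul_cancel₀ h0]
    have h3 := (hz _ h1).le
    rw [rk1_smul, mixD_smul_right, Complex.norm_real, Real.norm_eq_abs, sq_abs, inv_pow,
      Real.sq_sqrt hpos'.le] at h3
    have h4 := mul_le_mul_of_nonneg_left h3 hpos'.le
    rw [← mul_assoc, mul_inv_cancel₀ h0, one_mul] at h4
    linarith

end Vale.Agent.P281.H368.NU
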