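import Vale.Agent.P281.H368.NU.Sf
import Vale.Agent.P281.H368.MFS.Gr2
import Vale.Agent.P281.H368.KG.G3

/-! P281, theorem NU, row N7, part 2: `∫ A ^ (n-1) ∧ N = 0` if the divisor `N` is contracted by the closed
form `A` (no positivity of `A` is needed). -/

open scoped Manifold ContDiff Topology ComplexOrder
open Set Filter Vale.Agent.P281.J Vale.Agent.P272.K Vale.Agent.P299

set_option linter.unusedSectionVars false

noncomputable section

namespace Vale.Agent.P281.H368.NU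

open Vale.Agent.P281.H167.GM Vale.Agent.P299.H223 Vale.Agent.P281.H368.GM
open Vale.Agent.P281.H713.SA Vale.Agent.P281.H949.SA
open Vale.Agent.P272.K.AMP (hess)
open Vale.Agent.P272.K.INT (intX IsClosedForm IsDensity lag)
open Vale.Agent.P281.H368.KG (GData fderiv_ne BdL isForm_BdL smooth_BdL)
open Vale.Agent.P281.H368.MFS (InKer closed_zero hess_log_unit)
open Vale.Agent.P281.H167.KG (LocAt)

variable {n : ℕ} {X : Type} [TopologicalSpace X] [ChartedSpace (Cm n) X]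
  [IsManifold 𝓘(ℂ, Cm n) ω X] {m : ℕ} {Λ : D.FormM n X} {ρ : X → ℝ}
  {A χ : D.FormM n X} {x : X} {e : Chart n X}

/-- the data of the vanishing theorem -/
structure VData (m : ℕ) (Λ : D.FormM n X) (ρ : X → ℝ) (A : D.FormM n X) : Prop where
  hm : 0 < m
  hΛ : IsClosedForm Λ
  hρ : SmoothFn (n := n) ρ
  hρ0 : ∀ x, 0 ≤ ρ x
  hA : IsClosedForm A
  loc : ∀ x, ∃ (r : ℕ) (g : Fin r → X → ℂ) (a : Fin r → ℕ) (w : X → ℂ),
    LocAt m Λ ρ x g a (fun (_ : Fin 1) => w) ∧
    ∀ᶠ y in 𝓝 x, ∀ i, g i y = 0 → ∃ v : Cm n, v ≠ 0 ∧ dif (Cm n) (g i) y v = 0 ∧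
      InKer (A (chartAt (Cm n) y) (chartAt (Cm n) y y)) v

namespace VData

variable (h : VData m Λ ρ A)

include h

lemma mpos : (0 : ℝ) < m := by exact_mod_cast h.hm

/-- the trivial data of the growth theorem -/
lemma gdata : GData n m n Λ ρ (fun _ _ => 0) (fun _ _ => 0) := by
  refine ⟨h.hm, h.hΛ, h.hρ, h.hρ0, closed_zero, closed_zero, fun e x hx => Matrix.PosSemidef.zero,
    fun e x hx => Matrix.PosSemidef.zero, fun e x hx => by simp, fun x => ?_⟩
  obtain ⟨r, g, a, w, h1, -⟩ := h.loc x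
  have hw := h1.holH 0
  have hw0 : w x ≠ 0 := by
    obtain ⟨b, hb⟩ := h1.ne
    exact hb
  refine ⟨r, 1, g, a, _, h1, ?_⟩
  filter_upwards [Vale.Agent.P281.H564.holAt_eventually hw,
    (Vale.Agent.P281.H564.holAt_continuousAt hw).eventually_ne hw0] with y h2 h3
  refine ⟨fun e he => ?_, fun i _ => Or.inr ⟨⊥, by simp, ?_⟩⟩
  · rw [hess_log_unit he h2 h3, smul_zero]
  · intro v hv
    rw [Submodule.mem_bot] at hv
    subst hv
    exact ⟨map_zero _, fun b b' => by simp⟩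

/-- the local bound -/
theorem local_bd (x : X) :
    ∃ C : ℝ, ∀ᶠ z in 𝓝 ((chartAt (Cm n) x : Chart n X) x),
      0 < ρ ((chartAt (Cm n) x : Chart n X).symm z) →
      Sf (A (chartAt (Cm n) x) z)
        (GM.dd (fun y => Real.log (ρ ((chartAt (Cm n) x : Chart n X).symm y))) z) ≤ C := by
  set e : Chart n X := chartAt (Cm n) x with he
  have hx : At e x := atc x
  obtain ⟨r, g, a, w, hl, hev⟩ := h.loc x
  obtain ⟨ψ, hψs, hψ⟩ := hl.loc
  have hw := hl.holH 0
  have hw0 : w x ≠ 0 := by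
    obtain ⟨b, hb⟩ := hl.ne
    exact hb
  have hAs : ∀ i j, ContDiffAt ℝ ∞ (fun z => A e z i j) (e x) := h.hA.smooth e x hx
  have hgev : ∀ᶠ y in 𝓝 x, ∀ i, HolAt (Cm n) (g i) y :=
    eventually_all.2 fun i => Vale.Agent.P281.H564.holAt_eventually (hl.holg i).1
  have hGs : ∀ i, ContDiffAt ℂ ω (fun z => g i (e.symm z)) (e x) := fun i =>
    Vale.Agent.P281.H564.holAt_chart hx (hl.holg i).1
  have hG' : ∀ i, fderiv ℂ (fun z => g i (e.symm z)) (e x) ≠ 0 := fun i =>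
    fderiv_ne hx (hl.holg i).1 (hl.holg i).2
  -- the smooth factor
  set E : Cm n → ℝ := fun z => nsq (fun _ : Fin 1 => w (e.symm z)) *
    Real.exp (-m * ψ (e.symm z)) with hE
  have hψ2 : ContDiffAt ℝ 2 (fun z => ψ (e.symm z)) (e x) := (hψs e hx).of_le (by norm_cast)
  have hHs : ContDiffAt ℂ ω (fun z (_ : Fin 1) => w (e.symm z)) (e x) :=
    contDiffAt_pi.2 fun b => Vale.Agent.P281.H564.holAt_chart hx hw
  have hH0 : (fun _ : Fin 1 => w (e.symm (e x))) ≠ 0 := by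
    intro h0
    exact hw0 (by have := congrFun h0 0; rwa [hx.left_inv] at this)
  have hEs : ContDiffAt ℝ 2 E (e x) :=
    ((smooth_nsq hHs).of_le (by norm_cast)).mul (contDiffAt_const.mul hψ2).exp
  have hE0 : 0 < E (e x) := mul_pos (nsq_pos hH0) (Real.exp_pos _)
  have hR : ∀ᶠ z in 𝓝 (e x), ρ (e.symm z) = ‖∏ i, g i (e.symm z) ^ a i‖ ^ 2 * E z := by
    filter_upwards [(Vale.Agent.P281.H564.tendsto_symm hx).eventually hψ] with z hz
    rw [hz.2, hE, mul_assoc]
    rfl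
  refine local_boundS hAs hGs hG' hEs hE0 hR ?_
  filter_upwards [hx.nhds_target, (Vale.Agent.P281.H564.tendsto_symm hx).eventually
    (hev.and hgev)] with z hz hz2 i hgi
  have hzA : At e (e.symm z) := At.of_target hx.1 hz
  have hrz : e (e.symm z) = z := e.right_inv hz
  obtain ⟨v, hv0, hv1, hv2⟩ := hz2.1 i hgi
  have h9 := Sf_zero_of_ker (A := A e (e (e.symm z)))
    (ξ := dh (fun z => g i (e.symm z)) (e (e.symm z))) (w := De e (e.symm z) v) ?_ ?_
    (ker_change h.hA.form hzA hv2)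
  · rwa [hrz] at h9
  · intro h0
    exact hv0 (De_injective hzA (by rw [map_zero]; exact h0))
  · rw [dh_apply, ← Vale.Agent.P281.H787.dif_eq hzA (hz2.2 i)]
    exact hv1

lemma dens {B : D.FormM n X} (hB : IsClosedForm B) {δ : ℝ} (hδ : 0 < δ) :
    IsDensity (fun (e : Chart n X) z => mixD (B e z) (BdL m Λ ρ (fun _ _ => 0) δ e z)) :=
  Vale.Agent.P281.H787.isDensity_mixD hB.form (isForm_BdL h.hΛ h.hρ h.hρ0 closed_zero hδ) hB.smooth
    fun e x hx i j => smooth_BdL h.hΛ h.hρ h.hρ0 closed_zero hδ e x hx i j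

/-- the uniform bound near a point -/
lemma nhds_bound (hχ : IsKahler χ) {κ : ℝ} (hκ : 0 < κ) (x : X) : ∃ C : ℝ, 0 ≤ C ∧
    ∀ᶠ y in 𝓝 x, 0 < ρ y → ∀ e, At e y → ∀ δ : ℝ, 0 < δ →
      |mixD (A e (e y)) (BdL m Λ ρ (fun _ _ => 0) δ e (e y))| ≤
        κ * mixD (χ e (e y)) (BdL m Λ ρ (fun _ _ => 0) δ e (e y)) +
        C * (δ / (ρ y + δ)) * (χ e (e y)).det.re := by
  have hχH := hχ.toIsHermitian
  obtain ⟨C, hC⟩ := h.local_bd x
  set c : Chart n X := chartAt (Cm n) x with hc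
  have hx : At c x := atc x
  obtain ⟨c₀, hc₀, hlow⟩ := exists_lower (χ := χ c) (p := c x)
    (fun i j => (hχ.smooth c x hx i j).continuousAt) (hχ.posDef c x hx)
  have hdet : ContinuousAt (fun z => (χ c z).det.re) (c x) := by
    have h1 : ContDiffAt ℝ ∞ (fun z => (χ c z).det) (c x) :=
      INT.contDiffAt_det (hχ.smooth c x hx)
    exact (Complex.continuous_re.continuousAt).comp h1.continuousAt
  have hdp : 0 < (χ c (c x)).det.re := hχH.det_re_pos hx
  set d : ℝ := (χ c (c x)).det.re / 2 with hd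
  have hd0 : 0 < d := half_pos hdp
  have hdet' : ∀ᶠ z in 𝓝 (c x), d < (χ c z).det.re :=
    hdet.eventually (lt_mem_nhds (half_lt_self hdp))
  have hm := h.mpos
  have hκ' : 0 < κ * c₀ := mul_pos hκ hc₀
  refine ⟨(m : ℝ)⁻¹ * ((κ * c₀)⁻¹ * |C|) / d, by positivity, ?_⟩
  filter_upwards [(c.continuousAt hx.2).eventually (hC.and (hdet'.and hlow)),
    c.open_source.mem_nhds hx.2] with y hy hys hρy e he δ hδ
  have hyA : At c y := ⟨hx.1, hys⟩
  have hy1 := hy.1
  rw [c.left_inv hys] at hy1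
  have h1 := hy1 hρy
  -- in the chart `c`
  have h2 : |mixD (A c (c y)) (BdL m Λ ρ (fun _ _ => 0) δ c (c y))| ≤
      κ * mixD (χ c (c y)) (BdL m Λ ρ (fun _ _ => 0) δ c (c y)) +
      (m : ℝ)⁻¹ * ((κ * c₀)⁻¹ * |C|) / d * (δ / (ρ y + δ)) * (χ c (c y)).det.re := by
    rw [h.gdata.BdL_eq hδ hyA hρy, mixD_smul_right, mixD_smul_right, abs_mul]
    set ξ := GM.dd (fun y => Real.log (ρ (c.symm y))) (c y) with hξ
    have h4 : δ * ρ y / (ρ y + δ) ^ 2 ≤ δ / (ρ y + δ) := by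
      rw [div_le_div_iff₀ (by positivity) (by positivity)]
      have : 0 ≤ δ * (ρ y + δ) * δ := by positivity
      nlinarith
    have h5 : (1 : ℝ) ≤ (χ c (c y)).det.re / d := by
      rw [le_div_iff₀ hd0, one_mul]; exact hy.2.1.le
    have h6 : 0 ≤ (m : ℝ)⁻¹ * (δ * ρ y / (ρ y + δ) ^ 2) := by positivity
    have h7 : 0 ≤ δ / (ρ y + δ) := by positivity
    rw [abs_of_nonneg h6]
    set t : ℝ := (m : ℝ)⁻¹ * (δ * ρ y / (ρ y + δ) ^ 2) with ht
    have h8 := abs_mixD_le (A c (c y)) ξ hκ'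
    have h9 := hy.2.2 ξ
    have h10 : κ * c₀ * ∑ j, ‖ξ j‖ ^ 2 ≤ κ * mixD (χ c (c y)) (rk1 ξ) := by
      rw [mul_assoc]
      exact mul_le_mul_of_nonneg_left h9 hκ.le
    have h11 : (κ * c₀)⁻¹ * Sf (A c (c y)) ξ ≤ (κ * c₀)⁻¹ * |C| :=
      mul_le_mul_of_nonneg_left (h1.trans (le_abs_self _)) (by positivity)
    have h12 : |mixD (A c (c y)) (rk1 ξ)| ≤ κ * mixD (χ c (c y)) (rk1 ξ) + (κ * c₀)⁻¹ * |C| := by
      linarith
    have h13 := mul_le_mul_of_nonneg_left h12 h6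
    have h14 : t * ((κ * c₀)⁻¹ * |C|) ≤
        (m : ℝ)⁻¹ * ((κ * c₀)⁻¹ * |C|) / d * (δ / (ρ y + δ)) * (χ c (c y)).det.re := by
      have h15 : 0 ≤ (κ * c₀)⁻¹ * |C| := by positivity
      calc t * ((κ * c₀)⁻¹ * |C|) ≤ (m : ℝ)⁻¹ * (δ / (ρ y + δ)) * ((κ * c₀)⁻¹ * |C|) := by
            refine mul_le_mul_of_nonneg_right (mul_le_mul_of_nonneg_left h4 (by positivity)) h15
        _ ≤ (m : ℝ)⁻¹ * (δ / (ρ y + δ)) * ((κ * c₀)⁻¹ * |C|) * ((χ c (c y)).det.re / d) :=
            le_mul_of_one_le_right (by positivity) h5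
        _ = (m : ℝ)⁻¹ * ((κ * c₀)⁻¹ * |C|) / d * (δ / (ρ y + δ)) * (χ c (c y)).det.re := by ring
    have h16 : κ * (t * mixD (χ c (c y)) (rk1 ξ)) = t * (κ * mixD (χ c (c y)) (rk1 ξ)) := by ring
    rw [h16]
    rw [mul_add] at h13
    linarith
  -- in the chart `e`
  have h8 := (h.dens h.hA hδ).change e c y he hyA
  have h8' := (h.dens (INT.IsKahler.isClosedForm hχ) hδ).change e c y he hyA
  have h9 := (INT.isDensity_det hχH.isForm hχH.smooth).change e c y he hyA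
  rw [h8, h8', h9, abs_mul, abs_of_nonneg (by positivity : 0 ≤ ‖(jacM e c y).det‖ ^ 2)]
  have h10 := mul_le_mul_of_nonneg_right h2 (by positivity : 0 ≤ ‖(jacM e c y).det‖ ^ 2)
  refine h10.trans (le_of_eq ?_)
  ring

/-- **the uniform bound** -/
theorem bound [CompactSpace X] (hχ : IsKahler χ) {κ : ℝ} (hκ : 0 < κ) : ∃ C : ℝ, 0 ≤ C ∧
    ∀ δ : ℝ, 0 < δ → ∀ e x, At e x →
      |mixD (A e (e x)) (BdL m Λ ρ (fun _ _ => 0) δ e (e x))| ≤
        κ * mixD (χ e (e x)) (BdL m Λ ρ (fun _ _ => 0) δ e (e x)) +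
        C * (δ / (ρ x + δ)) * (χ e (e x)).det.re := by
  have hχH := hχ.toIsHermitian
  choose C hC0 hC using fun x => h.nhds_bound hχ hκ x
  obtain ⟨t, -, ht⟩ := isCompact_univ.elim_nhds_subcover
    (fun x => {y | 0 < ρ y → ∀ e, At e y → ∀ δ : ℝ, 0 < δ →
      |mixD (A e (e y)) (BdL m Λ ρ (fun _ _ => 0) δ e (e y))| ≤
        κ * mixD (χ e (e y)) (BdL m Λ ρ (fun _ _ => 0) δ e (e y)) +
        C x * (δ / (ρ y + δ)) * (χ e (e y)).det.re})
    (fun x _ => hC x)
  have hCs : 0 ≤ ∑ x ∈ t, C x := Finset.sum_nonneg fun x _ => hC0 x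
  refine ⟨∑ x ∈ t, C x, hCs, ?_⟩
  have key : ∀ δ : ℝ, 0 < δ → ∀ e x, At e x → 0 < ρ x →
      |mixD (A e (e x)) (BdL m Λ ρ (fun _ _ => 0) δ e (e x))| ≤
        κ * mixD (χ e (e x)) (BdL m Λ ρ (fun _ _ => 0) δ e (e x)) +
        (∑ x ∈ t, C x) * (δ / (ρ x + δ)) * (χ e (e x)).det.re := by
    intro δ hδ e x hx hρx
    obtain ⟨i, hi, hxi⟩ := mem_iUnion₂.1 (ht (mem_univ x))
    refine (hxi hρx e hx δ hδ).trans (add_le_add le_rfl ?_)
    refine mul_le_mul_of_nonneg_right (mul_le_mul_of_nonneg_right ?_ (by positivity))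
      (hχH.det_re_pos hx).le
    exact Finset.single_le_sum (f := C) (fun x _ => hC0 x) hi
  intro δ hδ e x hx
  have hc2 : ContinuousAt (fun z => (∑ x ∈ t, C x) * (δ / (ρ (e.symm z) + δ)) *
      (χ e z).det.re) (e x) := by
    have h1 : ContinuousAt (fun z => ρ (e.symm z)) (e x) := (h.hρ e x hx).continuousAt
    have h2 : ContinuousAt (fun z => (χ e z).det.re) (e x) :=
      (INT.isDensity_det hχH.isForm hχH.smooth).cont e x hx
    refine (continuousAt_const.mul (continuousAt_const.div (h1.add continuousAt_const) ?_)).mul h2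
    have := h.hρ0 (e.symm (e x))
    have h4 : 0 < ρ (e.symm (e x)) + δ := by linarith
    exact h4.ne'
  have hc3 := (h.dens (INT.IsKahler.isClosedForm hχ) hδ).cont e x hx
  have hc4 : ContinuousAt (fun z => κ * mixD (χ e z) (BdL m Λ ρ (fun _ _ => 0) δ e z) +
      (∑ x ∈ t, C x) * (δ / (ρ (e.symm z) + δ)) * (χ e z).det.re) (e x) :=
    (continuousAt_const.mul hc3).add hc2
  have h3 := le_of_frequently (g := fun z => κ * mixD (χ e z) (BdL m Λ ρ (fun _ _ => 0) δ e z) +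
      (∑ x ∈ t, C x) * (δ / (ρ (e.symm z) + δ)) * (χ e z).det.re)
    ((h.dens h.hA hδ).cont e x hx).abs hc4 (by
    refine ((h.gdata.freq hx).and_eventually hx.nhds_target).mono ?_
    rintro z ⟨hz, hzt⟩
    have hzA : At e (e.symm z) := At.of_target hx.1 hzt
    have h1 := key δ hδ e (e.symm z) hzA hz
    rw [e.right_inv hzt] at h1
    exact h1)
  beta_reduce at h3
  rw [hx.left_inv] at h3
  exact h3

/-- **the vanishing theorem** -/
theorem vanishing [T2Space X] [CompactSpace X] (hχ : IsKahler χ) : mixX A Λ = 0 := by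
  have hχH := hχ.toIsHermitian
  have hχc := INT.IsKahler.isClosedForm hχ
  have coh : CohPart := Vale.Agent.P281.H227.GMC.cohPart
  have hG := h.gdata
  have hρc : Continuous ρ := INT.SmoothFn.continuous h.hρ
  have hz : ∀ B : D.FormM n X, mixX B (fun (_ : Chart n X) _ => 0) = 0 := by
    intro B
    have h1 : mixX B (fun (_ : Chart n X) _ => 0) = intX fun (_ : Chart n X) _ => 0 := by
      refine INT.intX_congr fun e x hx => ?_
      simp [mixD]
    rw [h1]
    exact INT.intX_zero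
  have l1 := Vale.Agent.P281.H368.KG.tendsto_mixX_BdL coh hχ hG h.hA
  have l2 := Vale.Agent.P281.H368.KG.tendsto_mixX_BdL coh hχ hG hχc
  rw [hz, sub_zero] at l1 l2
  have key : ∀ κ : ℝ, 0 < κ → |mixX A Λ| ≤ κ * mixX χ Λ := by
    intro κ hκ
    obtain ⟨C, hC0, hC⟩ := h.bound hχ hκ
    have hmass : Tendsto (fun δ : ℝ => C * H882.J χ (fun x => δ / (ρ x + δ) * 1)) (𝓝[>] 0)
        (𝓝 0) := by
      have h1 := Vale.Agent.P281.H227.SB.tendsto_mass hχH hρc h.hρ0 (fun e he => hG.null he)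
        (continuous_const (y := (1 : ℝ)))
      have := h1.const_mul C
      rwa [mul_zero] at this
    have l3 := (l2.const_mul κ).add hmass
    rw [add_zero] at l3
    refine le_of_tendsto_of_tendsto l1.abs l3 ?_
    filter_upwards [self_mem_nhdsWithin] with δ hδ
    have hδ' : (0 : ℝ) < δ := hδ
    have d1 := h.dens h.hA hδ'
    have d2 := h.dens hχc hδ'
    have hc : Continuous fun x => C * (δ / (ρ x + δ) * 1) := by
      refine continuous_const.mul ((continuous_const.div (hρc.add continuous_const)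
        fun x => ?_).mul continuous_const)
      have h4 : 0 < ρ x + δ := by
        have := h.hρ0 x
        linarith
      exact h4.ne'
    have d3 := Vale.Agent.P299.H882.J_dens hχH hc
    have e1 : κ * mixX χ (BdL m Λ ρ (fun _ _ => 0) δ) +
        C * H882.J χ (fun x => δ / (ρ x + δ) * 1) =
        intX (fun (e : Chart n X) z => κ * mixD (χ e z) (BdL m Λ ρ (fun _ _ => 0) δ e z) +
          C * (δ / (ρ (e.symm z) + δ) * 1) * (χ e z).det.re) := by
      rw [INT.intX_add (d2.const_mul κ) d3, INT.intX_const_mul, ← Vale.Agent.P299.H882.J_const_mul]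
      rfl
    rw [e1]
    have hle : ∀ e x, At e x → |mixD (A e (e x)) (BdL m Λ ρ (fun _ _ => 0) δ e (e x))| ≤
        κ * mixD (χ e (e x)) (BdL m Λ ρ (fun _ _ => 0) δ e (e x)) +
          C * (δ / (ρ (e.symm (e x)) + δ) * 1) * (χ e (e x)).det.re := by
      intro e x hx
      have := hC δ hδ' e x hx
      rwa [hx.left_inv, mul_one]
    refine abs_le.2 ⟨?_, ?_⟩
    · have h1 := INT.intX_mono (d1.const_mul (-1)) ((d2.const_mul κ).add d3) fun e x hx => by
        have h5 := hle e x hx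
        have h6 := neg_abs_le (mixD (A e (e x)) (BdL m Λ ρ (fun _ _ => 0) δ e (e x)))
        linarith
      rw [INT.intX_const_mul] at h1
      have h7 : mixX A (BdL m Λ ρ (fun _ _ => 0) δ) =
        intX (fun (e : Chart n X) z => mixD (A e z) (BdL m Λ ρ (fun _ _ => 0) δ e z)) := rfl
      rw [h7]
      linarith
    · exact INT.intX_mono d1 ((d2.const_mul κ).add d3) fun e x hx =>
        (le_abs_self _).trans (hle e x hx)
  by_contra hne
  have hpos : 0 < |mixX A Λ| := abs_pos.2 hne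
  have h1 := key 1 one_pos
  have hχΛ : 0 < mixX χ Λ := by linarith
  have h2 := key (|mixX A Λ| / (2 * mixX χ Λ)) (by positivity)
  have h3 : |mixX A Λ| / (2 * mixX χ Λ) * mixX χ Λ = |mixX A Λ| / 2 := by
    field_simp
  rw [h3] at h2
  linarith

end VData

end Vale.Agent.P281.H368.NU
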